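import Mathlib
import Crest.Prelude.Def_SPSPS

/-!
# S0505 generic leaf: reindexing a depth-five circuit along equivalences of its index types

`SPSPS.reindex C eL eB eP eS eR` is `C` transported to equivalent index types. It has the same
output, is homogeneous iff `C` is, and has the same size. In particular
(`exists_fin_of_fintype`) a circuit over arbitrary finite index types yields a circuit over
`Fin l`, `Fin b`, `Fin p`, `Fin s`, `Fin r` with the same output, homogeneity and size.
-/

set_option autoImplicit false

namespace Crest.Agent.Helper62.S0505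

open Crest.ArithCircuit MvPolynomial

universe uK uι uL uB uP uS uR uL' uB' uP' uS' uR'

variable {K : Type uK} {ι : Type uι} {L : Type uL} {B : Type uB} {P : Type uP} {S : Type uS}
  {R : Type uR} {L' : Type uL'} {B' : Type uB'} {P' : Type uP'} {S' : Type uS'} {R' : Type uR'}

/-- Transport of a circuit along equivalences of the five index types. -/
def reindex (C : SPSPS K ι L B P S R) (eL : L ≃ L') (eB : B ≃ B') (eP : P ≃ P') (eS : S ≃ S')
    (eR : R ≃ R') : SPSPS K ι L' B' P' S' R' where
  leaf l := C.leaf (eL.symm l)
  inB b := (C.inB (eB.symm b)).map eL.toEmbedding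
  coefB b l := C.coefB (eB.symm b) (eL.symm l)
  inP p := (C.inP (eP.symm p)).map eB
  inS s := (C.inS (eS.symm s)).map eP.toEmbedding
  coefS s p := C.coefS (eS.symm s) (eP.symm p)
  inR r := (C.inR (eR.symm r)).map eS
  inOut := C.inOut.map eR.toEmbedding
  coefOut r := C.coefOut (eR.symm r)

section vals

variable [CommSemiring K] (C : SPSPS K ι L B P S R) (eL : L ≃ L') (eB : B ≃ B') (eP : P ≃ P')
  (eS : S ≃ S') (eR : R ≃ R')

@[simp] theorem reindex_leafVal (l : L) :
    (reindex C eL eB eP eS eR).leafVal (eL l) = C.leafVal l := by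
  simp [SPSPS.leafVal, reindex]

@[simp] theorem reindex_valB (b : B) :
    (reindex C eL eB eP eS eR).valB (eB b) = C.valB b := by
  unfold SPSPS.valB
  have h1 : (reindex C eL eB eP eS eR).inB (eB b) = (C.inB b).map eL.toEmbedding := by
    simp [reindex]
  rw [h1, Finset.sum_map]
  refine Finset.sum_congr rfl fun l _ => ?_
  have h2 : (reindex C eL eB eP eS eR).coefB (eB b) (eL l) = C.coefB b l := by simp [reindex]
  simp only [Equiv.coe_toEmbedding]
  rw [h2, reindex_leafVal]

@[simp] theorem reindex_valP (p : P) :
    (reindex C eL eB eP eS eR).valP (eP p) = C.valP p := by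
  unfold SPSPS.valP
  have h1 : (reindex C eL eB eP eS eR).inP (eP p) = (C.inP p).map eB := by simp [reindex]
  rw [h1, Multiset.map_map]
  congr 1
  refine Multiset.map_congr rfl fun b _ => ?_
  simp

@[simp] theorem reindex_valS (s : S) :
    (reindex C eL eB eP eS eR).valS (eS s) = C.valS s := by
  unfold SPSPS.valS
  have h1 : (reindex C eL eB eP eS eR).inS (eS s) = (C.inS s).map eP.toEmbedding := by
    simp [reindex]
  rw [h1, Finset.sum_map]
  refine Finset.sum_congr rfl fun p _ => ?_
  have h2 : (reindex C eL eB eP eS eR).coefS (eS s) (eP p) = C.coefS s p := by simp [reindex]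
  simp only [Equiv.coe_toEmbedding]
  rw [h2, reindex_valP]

@[simp] theorem reindex_valR (r : R) :
    (reindex C eL eB eP eS eR).valR (eR r) = C.valR r := by
  unfold SPSPS.valR
  have h1 : (reindex C eL eB eP eS eR).inR (eR r) = (C.inR r).map eS := by simp [reindex]
  rw [h1, Multiset.map_map]
  congr 1
  refine Multiset.map_congr rfl fun s _ => ?_
  simp

/-- Reindexing does not change the output polynomial. -/
@[simp] theorem reindex_output :
    (reindex C eL eB eP eS eR).output = C.output := by
  unfold SPSPS.output
  have h1 : (reindex C eL eB eP eS eR).inOut = C.inOut.map eR.toEmbedding := rfl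
  rw [h1, Finset.sum_map]
  refine Finset.sum_congr rfl fun r _ => ?_
  have h2 : (reindex C eL eB eP eS eR).coefOut (eR r) = C.coefOut r := by simp [reindex]
  simp only [Equiv.coe_toEmbedding]
  rw [h2, reindex_valR]

end vals

section degs

variable (C : SPSPS K ι L B P S R) (eL : L ≃ L') (eB : B ≃ B') (eP : P ≃ P')
  (eS : S ≃ S') (eR : R ≃ R')

@[simp] theorem reindex_leafDeg (l : L) :
    (reindex C eL eB eP eS eR).leafDeg (eL l) = C.leafDeg l := by
  simp [SPSPS.leafDeg, reindex]

@[simp] theorem reindex_degB (b : B) :
    (reindex C eL eB eP eS eR).degB (eB b) = C.degB b := by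
  unfold SPSPS.degB
  have h1 : (reindex C eL eB eP eS eR).inB (eB b) = (C.inB b).map eL.toEmbedding := by
    simp [reindex]
  rw [h1, Finset.sup_map]
  refine Finset.sup_congr rfl fun l _ => ?_
  simp

@[simp] theorem reindex_degP (p : P) :
    (reindex C eL eB eP eS eR).degP (eP p) = C.degP p := by
  unfold SPSPS.degP
  have h1 : (reindex C eL eB eP eS eR).inP (eP p) = (C.inP p).map eB := by simp [reindex]
  rw [h1, Multiset.map_map]
  congr 1
  refine Multiset.map_congr rfl fun b _ => ?_
  simp

@[simp] theorem reindex_degS (s : S) :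
    (reindex C eL eB eP eS eR).degS (eS s) = C.degS s := by
  unfold SPSPS.degS
  have h1 : (reindex C eL eB eP eS eR).inS (eS s) = (C.inS s).map eP.toEmbedding := by
    simp [reindex]
  rw [h1, Finset.sup_map]
  refine Finset.sup_congr rfl fun p _ => ?_
  simp

@[simp] theorem reindex_degR (r : R) :
    (reindex C eL eB eP eS eR).degR (eR r) = C.degR r := by
  unfold SPSPS.degR
  have h1 : (reindex C eL eB eP eS eR).inR (eR r) = (C.inR r).map eS := by simp [reindex]
  rw [h1, Multiset.map_map]
  congr 1
  refine Multiset.map_congr rfl fun s _ => ?_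
  simp

@[simp] theorem reindex_degOut :
    (reindex C eL eB eP eS eR).degOut = C.degOut := by
  unfold SPSPS.degOut
  have h1 : (reindex C eL eB eP eS eR).inOut = C.inOut.map eR.toEmbedding := rfl
  rw [h1, Finset.sup_map]
  refine Finset.sup_congr rfl fun r _ => ?_
  simp

/-- Reindexing preserves syntactic homogeneity. -/
theorem reindex_isHomogeneous (h : C.IsHomogeneous) :
    (reindex C eL eB eP eS eR).IsHomogeneous := by
  obtain ⟨hB, hS, hO⟩ := h
  refine ⟨?_, ?_, ?_⟩
  · intro b' l' hl'
    obtain ⟨b, rfl⟩ := eB.surjective b'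
    have h1 : (reindex C eL eB eP eS eR).inB (eB b) = (C.inB b).map eL.toEmbedding := by
      simp [reindex]
    rw [h1, Finset.mem_map] at hl'
    obtain ⟨l, hl, rfl⟩ := hl'
    simp only [Equiv.coe_toEmbedding]
    rw [reindex_leafDeg, reindex_degB]
    exact hB b l hl
  · intro s' p' hp'
    obtain ⟨s, rfl⟩ := eS.surjective s'
    have h1 : (reindex C eL eB eP eS eR).inS (eS s) = (C.inS s).map eP.toEmbedding := by
      simp [reindex]
    rw [h1, Finset.mem_map] at hp'
    obtain ⟨p, hp, rfl⟩ := hp'
    simp only [Equiv.coe_toEmbedding]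
    rw [reindex_degP, reindex_degS]
    exact hS s p hp
  · intro r' hr'
    have h1 : (reindex C eL eB eP eS eR).inOut = C.inOut.map eR.toEmbedding := rfl
    rw [h1, Finset.mem_map] at hr'
    obtain ⟨r, hr, rfl⟩ := hr'
    simp only [Equiv.coe_toEmbedding]
    rw [reindex_degR, reindex_degOut]
    exact hO r hr

/-- Reindexing does not change the size. -/
theorem reindex_size [Fintype L] [Fintype B] [Fintype P] [Fintype S] [Fintype R]
    [Fintype L'] [Fintype B'] [Fintype P'] [Fintype S'] [Fintype R'] :
    (reindex C eL eB eP eS eR).size = C.size := by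
  unfold SPSPS.size
  rw [Fintype.card_congr eL, Fintype.card_congr eB, Fintype.card_congr eP, Fintype.card_congr eS,
    Fintype.card_congr eR]

end degs

/-- A circuit over arbitrary finite index types yields one over `Fin`-types with the same
output, homogeneity and size. -/
theorem exists_fin_of_fintype [CommSemiring K] [Fintype L] [Fintype B] [Fintype P] [Fintype S]
    [Fintype R] (C : SPSPS K ι L B P S R) (hC : C.IsHomogeneous) :
    ∃ (l b p s r : ℕ) (C' : SPSPS K ι (Fin l) (Fin b) (Fin p) (Fin s) (Fin r)),
      C'.IsHomogeneous ∧ C'.output = C.output ∧ C'.size = C.size :=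
  ⟨Fintype.card L, Fintype.card B, Fintype.card P, Fintype.card S, Fintype.card R,
    reindex C (Fintype.equivFin L) (Fintype.equivFin B) (Fintype.equivFin P)
      (Fintype.equivFin S) (Fintype.equivFin R),
    reindex_isHomogeneous C _ _ _ _ _ hC, reindex_output C _ _ _ _ _, reindex_size C _ _ _ _ _⟩

end Crest.Agent.Helper62.S0505
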