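import Mathlib

/-!
# S0505 numeric leaf: the explicit size is at most `n ^ (√n + 4)`

`t = ⌈√n⌉₊`, `r = ⌈n / t⌉₊` (exactly the expressions of the frozen statement).
-/

set_option autoImplicit false

namespace Crest.Agent.Helper62.S0505

/-- Basic facts on `t = ⌈√n⌉₊` for `n ≥ 2`. -/
theorem ceil_sqrt_facts (n : ℕ) (hn : 2 ≤ n) :
    2 ≤ ⌈Real.sqrt n⌉₊ ∧ ⌈Real.sqrt n⌉₊ ≤ n ∧
      ((⌈Real.sqrt n⌉₊ : ℕ) : ℝ) < Real.sqrt n + 1 ∧ Real.sqrt n ≤ ((⌈Real.sqrt n⌉₊ : ℕ) : ℝ) := by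
  have hn' : (2 : ℝ) ≤ n := by exact_mod_cast hn
  have h1 : (1 : ℝ) < Real.sqrt n := by
    rw [show (1 : ℝ) = Real.sqrt 1 by simp]
    exact Real.sqrt_lt_sqrt (by norm_num) (by linarith)
  have h0 : (0 : ℝ) ≤ Real.sqrt n := Real.sqrt_nonneg _
  refine ⟨?_, ?_, Nat.ceil_lt_add_one h0, Nat.le_ceil _⟩
  · have : (1 : ℕ) < ⌈Real.sqrt n⌉₊ := by
      rw [Nat.lt_ceil]
      exact_mod_cast h1
    omega
  · rw [Nat.ceil_le]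
    have : Real.sqrt n ≤ Real.sqrt n * Real.sqrt n := by nlinarith
    rw [Real.mul_self_sqrt (by positivity)] at this
    exact this

/-- Basic facts on `r = ⌈n / ⌈√n⌉₊⌉₊` for `n ≥ 2`. -/
theorem ceil_div_facts (n : ℕ) (hn : 2 ≤ n) :
    1 ≤ ⌈(n : ℝ) / ⌈Real.sqrt n⌉₊⌉₊ ∧ ⌈(n : ℝ) / ⌈Real.sqrt n⌉₊⌉₊ ≤ ⌈Real.sqrt n⌉₊ := by
  obtain ⟨ht2, htn, htlt, hle⟩ := ceil_sqrt_facts n hn
  have hn' : (2 : ℝ) ≤ n := by exact_mod_cast hn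
  have htpos : (0 : ℝ) < ((⌈Real.sqrt n⌉₊ : ℕ) : ℝ) := by
    have : (2 : ℝ) ≤ ((⌈Real.sqrt n⌉₊ : ℕ) : ℝ) := by exact_mod_cast ht2
    linarith
  constructor
  · rw [Nat.one_le_iff_ne_zero, Ne, Nat.ceil_eq_zero, not_le]
    positivity
  · rw [Nat.ceil_le, div_le_iff₀ htpos]
    have h0 : (0 : ℝ) ≤ Real.sqrt n := Real.sqrt_nonneg _
    calc (n : ℝ) = Real.sqrt n * Real.sqrt n := (Real.mul_self_sqrt (by positivity)).symm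
      _ ≤ _ := by nlinarith

/-- The case `n = 2`: `t = 2`, `r = 1`. -/
theorem ceil_sqrt_two : ⌈Real.sqrt (2 : ℕ)⌉₊ = 2 := by
  obtain ⟨h2, hle, -, -⟩ := ceil_sqrt_facts 2 le_rfl
  omega

theorem ceil_div_two : ⌈((2 : ℕ) : ℝ) / ⌈Real.sqrt (2 : ℕ)⌉₊⌉₊ = 1 := by
  rw [ceil_sqrt_two]
  norm_num

/-- The explicit size bound of the frozen statement is at most `n ^ (√n + 4)`. -/
theorem size_bound (n : ℕ) (hn : 2 ≤ n) :
    ((2 * n ^ 3 + ⌈(n : ℝ) / ⌈Real.sqrt n⌉₊⌉₊ * n ^ 2 +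
          ⌈(n : ℝ) / ⌈Real.sqrt n⌉₊⌉₊ * n ^ (⌈Real.sqrt n⌉₊ + 1) +
          n ^ (⌈(n : ℝ) / ⌈Real.sqrt n⌉₊⌉₊ - 1) + 1 : ℕ) : ℝ) ≤ (n : ℝ) ^ (Real.sqrt n + 4) := by
  obtain ⟨ht2, htn, htlt, hle⟩ := ceil_sqrt_facts n hn
  obtain ⟨hr1, hrt⟩ := ceil_div_facts n hn
  have hn' : (2 : ℝ) ≤ n := by exact_mod_cast hn
  have hnpos : (0 : ℝ) < n := by linarith
  have hn1 : (1 : ℝ) ≤ n := by linarith
  have h1 : (1 : ℝ) < Real.sqrt n := by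
    rw [show (1 : ℝ) = Real.sqrt 1 by simp]
    exact Real.sqrt_lt_sqrt (by norm_num) (by linarith)
  -- E = n ^ √n
  have hsplit : (n : ℝ) ^ (Real.sqrt n + 4) = (n : ℝ) ^ Real.sqrt n * (n : ℝ) ^ 4 := by
    rw [Real.rpow_add hnpos]
    congr 1
    exact_mod_cast Real.rpow_natCast (n : ℝ) 4
  have hE : (n : ℝ) ≤ (n : ℝ) ^ Real.sqrt n := by
    calc (n : ℝ) = (n : ℝ) ^ (1 : ℝ) := (Real.rpow_one _).symm
      _ ≤ _ := Real.rpow_le_rpow_of_exponent_le hn1 h1.le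
  rcases Nat.lt_or_ge n 3 with h3 | h3
  · -- n = 2
    have h2 : n = 2 := by omega
    subst h2
    rw [hsplit, ceil_div_two, ceil_sqrt_two]
    norm_num
    norm_num at hE
    linarith
  · have h3' : (3 : ℝ) ≤ n := by exact_mod_cast h3
    set t := ⌈Real.sqrt n⌉₊ with ht
    set r := ⌈(n : ℝ) / t⌉₊ with hr
    set E := (n : ℝ) ^ Real.sqrt n with hEdef
    -- n ^ (t + 1) ≤ E * n ^ 2
    have hp1 : ((n ^ (t + 1) : ℕ) : ℝ) ≤ E * (n : ℝ) ^ 2 := by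
      have : (n : ℝ) ^ ((t + 1 : ℕ) : ℝ) ≤ (n : ℝ) ^ (Real.sqrt n + 2) := by
        apply Real.rpow_le_rpow_of_exponent_le hn1
        push_cast
        linarith
      rw [Real.rpow_natCast, Real.rpow_add hnpos] at this
      have h2 : (n : ℝ) ^ (2 : ℝ) = (n : ℝ) ^ 2 := by exact_mod_cast Real.rpow_natCast (n : ℝ) 2
      rw [h2] at this
      exact_mod_cast this
    -- n ^ (r - 1) ≤ E
    have hp2 : ((n ^ (r - 1) : ℕ) : ℝ) ≤ E := by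
      have : (n : ℝ) ^ ((r - 1 : ℕ) : ℝ) ≤ (n : ℝ) ^ (Real.sqrt n) := by
        apply Real.rpow_le_rpow_of_exponent_le hn1
        have h1 : ((r - 1 : ℕ) : ℝ) + 1 ≤ (t : ℝ) := by
          have : r - 1 + 1 ≤ t := by omega
          exact_mod_cast this
        linarith
      rw [Real.rpow_natCast] at this
      exact_mod_cast this
    have hrn : (r : ℝ) ≤ n := by
      have : r ≤ n := le_trans hrt htn
      exact_mod_cast this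
    have hr0 : (0 : ℝ) ≤ r := by positivity
    have hE0 : (0 : ℝ) ≤ E := by positivity
    rw [hsplit]
    push_cast
    have e1 : (r : ℝ) * (n : ℝ) ^ 2 ≤ (n : ℝ) ^ 3 := by nlinarith [sq_nonneg (n : ℝ)]
    have e2 : (r : ℝ) * ((n : ℝ) ^ (t + 1)) ≤ (n : ℝ) * (E * (n : ℝ) ^ 2) := by
      have hp1' : (n : ℝ) ^ (t + 1) ≤ E * (n : ℝ) ^ 2 := by exact_mod_cast hp1
      have : (0 : ℝ) ≤ (n : ℝ) ^ (t + 1) := by positivity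
      nlinarith
    have e3 : (n : ℝ) ^ (r - 1) ≤ E := by exact_mod_cast hp2
    -- goal: 2 n^3 + r n^2 + r n^(t+1) + n^(r-1) + 1 ≤ E * n^4
    have key : 3 * (n : ℝ) ^ 3 + 1 + E * (n : ℝ) ^ 3 + E ≤ E * (n : ℝ) ^ 4 := by
      have hn3 : (0 : ℝ) ≤ (n : ℝ) ^ 3 := by positivity
      have a1 : (n : ℝ) ^ 4 - (n : ℝ) ^ 3 - 1 ≥ 0 := by nlinarith [sq_nonneg (n : ℝ)]
      have a2 : (n : ℝ) * ((n : ℝ) ^ 4 - (n : ℝ) ^ 3 - 1) ≥ 3 * (n : ℝ) ^ 3 + 1 := by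
        nlinarith [sq_nonneg (n : ℝ), mul_nonneg hn3 (sub_nonneg.2 h3'), pow_nonneg hnpos.le 4]
      nlinarith
    nlinarith
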