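import Mathlib
import Crest.Prelude.Def_SPSPS
import Crest.Agent.Helper62.S0505.Reindex
import Crest.Agent.Helper62.S0505.SizeBound

/-!
# S0505 leaves A (Reindex) and D (Arith) in the exact Blueprint forms of
`Crest/Agent/Helper91/S0505/Blueprint.lean`
-/

set_option autoImplicit false

namespace Crest.Agent.Helper62.S0505

open Crest.ArithCircuit MvPolynomial

/-! ## Leaf A -- Reindex -/

theorem exists_fin_reindex {K ι L B P S R : Type*} [CommSemiring K]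
    [Fintype L] [Fintype B] [Fintype P] [Fintype S] [Fintype R] (C : SPSPS K ι L B P S R) :
    ∃ C' : SPSPS K ι (Fin (Fintype.card L)) (Fin (Fintype.card B)) (Fin (Fintype.card P))
        (Fin (Fintype.card S)) (Fin (Fintype.card R)),
      (C.IsHomogeneous → C'.IsHomogeneous) ∧ C'.output = C.output :=
  ⟨reindex C (Fintype.equivFin L) (Fintype.equivFin B) (Fintype.equivFin P)
      (Fintype.equivFin S) (Fintype.equivFin R),
    reindex_isHomogeneous C _ _ _ _ _, reindex_output C _ _ _ _ _⟩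

/-- Variant of leaf A that also records the size. -/
theorem exists_fin_reindex_size {K ι L B P S R : Type*} [CommSemiring K]
    [Fintype L] [Fintype B] [Fintype P] [Fintype S] [Fintype R] (C : SPSPS K ι L B P S R) :
    ∃ C' : SPSPS K ι (Fin (Fintype.card L)) (Fin (Fintype.card B)) (Fin (Fintype.card P))
        (Fin (Fintype.card S)) (Fin (Fintype.card R)),
      (C.IsHomogeneous → C'.IsHomogeneous) ∧ C'.output = C.output ∧ C'.size = C.size :=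
  ⟨reindex C (Fintype.equivFin L) (Fintype.equivFin B) (Fintype.equivFin P)
      (Fintype.equivFin S) (Fintype.equivFin R),
    reindex_isHomogeneous C _ _ _ _ _, reindex_output C _ _ _ _ _, reindex_size C _ _ _ _ _⟩

/-! ## Leaf D -- Arith -/

theorem params (n : ℕ) (hn : 2 ≤ n) :
    1 ≤ ⌈Real.sqrt n⌉₊ ∧ 1 ≤ ⌈(n : ℝ) / ⌈Real.sqrt n⌉₊⌉₊ ∧
      n ≤ ⌈(n : ℝ) / ⌈Real.sqrt n⌉₊⌉₊ * ⌈Real.sqrt n⌉₊ := by
  obtain ⟨ht2, -, -, -⟩ := ceil_sqrt_facts n hn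
  obtain ⟨hr1, -⟩ := ceil_div_facts n hn
  refine ⟨by omega, hr1, ?_⟩
  have htpos : (0 : ℝ) < ((⌈Real.sqrt n⌉₊ : ℕ) : ℝ) := by
    have : (2 : ℝ) ≤ ((⌈Real.sqrt n⌉₊ : ℕ) : ℝ) := by exact_mod_cast ht2
    linarith
  have h1 : (n : ℝ) / ((⌈Real.sqrt n⌉₊ : ℕ) : ℝ) ≤ ((⌈(n : ℝ) / ⌈Real.sqrt n⌉₊⌉₊ : ℕ) : ℝ) :=
    Nat.le_ceil _
  rw [div_le_iff₀ htpos] at h1
  exact_mod_cast h1

theorem size_bound_real (n : ℕ) (hn : 2 ≤ n) :
    ((2 * n ^ 3 + ⌈(n : ℝ) / ⌈Real.sqrt n⌉₊⌉₊ * n ^ 2 +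
          ⌈(n : ℝ) / ⌈Real.sqrt n⌉₊⌉₊ * n ^ (⌈Real.sqrt n⌉₊ + 1) +
          n ^ (⌈(n : ℝ) / ⌈Real.sqrt n⌉₊⌉₊ - 1) + 1 : ℕ) : ℝ) ≤
      (n : ℝ) ^ (Real.sqrt n + 4) :=
  size_bound n hn

end Crest.Agent.Helper62.S0505
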