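import Mathlib
import Crest.Agent.Helper91.S0505.Defs

/-!
# S0505 leaf G: the size of the circuit `circ` (exact Blueprint statement)
-/

set_option autoImplicit false

namespace Crest.Agent.Helper62.S0505

open Crest.ArithCircuit MvPolynomial Crest.Agent.Helper91.S0505

theorem circ_size (K : Type*) [CommSemiring K] (n' t' ρ : ℕ) :
    (circ K n' t' ρ).size =
      2 * (n' + 1) ^ 3 + (ρ + 1) * (n' + 1) ^ 2 + (ρ + 1) * (n' + 1) ^ (t' + 1 + 1) +
        (n' + 1) ^ ρ + 1 := by
  unfold SPSPS.size
  simp only [Fintype.card_prod, Fintype.card_fin, Fintype.card_pi, Finset.prod_const,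
    Finset.card_univ]
  ring

end Crest.Agent.Helper62.S0505
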